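import Vale.Agent.P283.N647.Props
import Vale.Agent.P283.M647.Final

/-!
E4. Generic functions on a finite extension (third copy).
-/

set_option linter.all false

namespace Vale.Agent.P283.H820

open Vale.Agent.P283.N647 Vale.Agent.P283.M647
open Vale.Agent.P283.A647 (IsRat)
open Vale.Agent.P283.H647 (order_exists order_unique order_transfer exists_ext jac_map)
open scoped KaehlerDifferential

theorem ciSup_eq_of_max {ι : Type} [Nonempty ι] (f : ι → ℤ) (i0 : ι) (h : ∀ i, f i ≤ f i0) :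
    ⨆ i, f i = f i0 :=
  le_antisymm (ciSup_le h) (le_ciSup ⟨f i0, by rintro _ ⟨i, rfl⟩; exact h i⟩ i0)

theorem top_smul {g R : ℕ} (a : Fin R → Fin (g + 1) → ℂ) (ha : IsArr a)
    (w : Option (Fin R) → ℤ) (e : ℕ) : M647.top a (fun p => (e : ℤ) * w p) = e * M647.top a w := by
  classical
  obtain ⟨b, hb⟩ := ha.1
  haveI : Nonempty {e : Fin (g + 1) → Option (Fin R) // IsBas a e} := ⟨⟨b, hb⟩⟩
  obtain ⟨i0, hi0⟩ := Finite.exists_max
    (fun b : {e : Fin (g + 1) → Option (Fin R) // IsBas a e} => ∑ i, w (b.1 i))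
  unfold M647.top
  rw [ciSup_eq_of_max _ i0 hi0, ciSup_eq_of_max _ i0 (fun i => ?_)]
  · rw [Finset.mul_sum]
  · have h1 := mul_le_mul_of_nonneg_left (hi0 i) (Int.natCast_nonneg e)
    rw [Finset.mul_sum, Finset.mul_sum] at h1
    exact h1

theorem logDisc_smul {g R k : ℕ} (a : Fin R → Fin (g + 1) → ℂ) (ha : IsArr a)
    (α : Fin R ⊕ Fin k → ℤ) (e : ℕ) :
    logDisc a (fun x => (e : ℤ) * α x) = e * logDisc a α := by
  have h1 : M647.wt (fun x => (e : ℤ) * α x) = fun p => (e : ℤ) * M647.wt α p := by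
    funext p
    cases p <;> simp [M647.wt]
  unfold logDisc
  rw [h1, top_smul a ha, mul_add, Finset.mul_sum]

section Sub

variable {L : Type} [Field L] [Algebra ℂ L] {g k : ℕ} (t : Fin g → L) (z : Fin k → L)

/-- The purely transcendental subfield. -/
noncomputable abbrev L0 : IntermediateField ℂ L := IntermediateField.adjoin ℂ (Set.range (Fin.append t z))

noncomputable def t0 : Fin g → L0 t z := fun i =>
  ⟨t i, IntermediateField.subset_adjoin ℂ _ ⟨Fin.castAdd k i, by simp⟩⟩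

noncomputable def z0 : Fin k → L0 t z := fun i =>
  ⟨z i, IntermediateField.subset_adjoin ℂ _ ⟨Fin.natAdd g i, by simp⟩⟩

theorem app0 (i : Fin (g + k)) :
    algebraMap (L0 t z) L (Fin.append (t0 t z) (z0 t z) i) = Fin.append t z i := by
  refine Fin.addCases (fun i => ?_) (fun i => ?_) i
  · simp [t0]
  · simp [z0]

theorem rat0 (h : IsFin (Fin.append t z)) : IsRat (Fin.append (t0 t z) (z0 t z)) := by
  constructor
  · have h1 : (IntermediateField.adjoin ℂ (Set.range (Fin.append (t0 t z) (z0 t z)))).map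
        (L0 t z).val = (⊤ : IntermediateField ℂ (L0 t z)).map (L0 t z).val := by
      rw [IntermediateField.adjoin_map, ← Set.range_comp]
      have h2 : (L0 t z).val ∘ Fin.append (t0 t z) (z0 t z) = Fin.append t z := by
        funext i; exact app0 t z i
      rw [h2]
      ext x
      simp
    exact IntermediateField.map_injective _ h1
  · have h2 : (IsScalarTower.toAlgHom ℂ (L0 t z) L) ∘ Fin.append (t0 t z) (z0 t z) =
        Fin.append t z := by
      funext i; exact app0 t z i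
    exact AlgebraicIndependent.of_comp (IsScalarTower.toAlgHom ℂ (L0 t z) L) (by rw [h2]; exact h.ind)

theorem form0 {R : ℕ} (a : Fin R → Fin (g + 1) → ℂ) (p : Option (Fin R)) :
    algebraMap (L0 t z) L (form (t0 t z) a p) = form t a p := by
  unfold form
  rw [map_sum]
  refine Finset.sum_congr rfl fun j _ => ?_
  rw [map_mul, ← IsScalarTower.algebraMap_apply]
  congr 1
  refine Fin.cases ?_ (fun i => ?_) j
  · simp
  · simp [t0]

theorem coord0 {R : ℕ} (a : Fin R → Fin (g + 1) → ℂ) (x : Fin R ⊕ Fin k) :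
    algebraMap (L0 t z) L (coord (t0 t z) a (z0 t z) x) = coord t a z x := by
  rcases x with i | l
  · exact form0 t z a (some i)
  · simp [coord, z0]

theorem wts_comap {R : ℕ} (a : Fin R → Fin (g + 1) → ℂ) (w : AddValuation L (WithTop ℤ)) :
    wts (w.comap (algebraMap (L0 t z) L)) (t0 t z) a (z0 t z) = wts w t a z := by
  funext x
  show ov w (algebraMap (L0 t z) L (coord (t0 t z) a (z0 t z) x)) = ov w (coord t a z x)
  rw [coord0]

theorem ov_smul {K L : Type} [Field K] [Field L] [Algebra K L] (w : AddValuation L (WithTop ℤ))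
    (v : AddValuation K (WithTop ℤ)) (e : ℕ) (h : ∀ f : K, w (algebraMap K L f) = e • v f)
    (f : K) (hf : f ≠ 0) : ov w (algebraMap K L f) = e * ov v f := by
  apply ov_eq_of
  rw [h, ← coe_ov v hf, ← WithTop.coe_nsmul]
  simp

/-- Dual derivations. -/
theorem exists_dual {d : ℕ} (y : Fin d → L) (h : IsTranscendenceBasis ℂ y) :
    ∃ D : Fin d → Derivation ℂ L L, Q.jac D y = 1 := by
  classical
  obtain ⟨B, hB⟩ := exists_kaehler_basis y h
  refine ⟨fun j => (B.coord j).compDer (KaehlerDifferential.D ℂ L), ?_⟩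
  unfold Q.jac
  rw [show (Matrix.of fun i j => ((B.coord j).compDer (KaehlerDifferential.D ℂ L)) (y i)) =
    (1 : Matrix (Fin d) (Fin d) L) from ?_, Matrix.det_one]
  ext i j
  simp only [Matrix.of_apply]
  show B.coord j (KaehlerDifferential.D ℂ L (y i)) = _
  rw [← hB i]
  simp [Matrix.one_apply, Finsupp.single_apply]

end Sub

section Main

variable {L : Type} [Field L] [Algebra ℂ L] {g k : ℕ} (t : Fin g → L) (z : Fin k → L)

theorem second (hE1 : ExtBasics) (hE2 : OrdScale) (hg : 0 < g) (hF : IsFin (Fin.append t z))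
    {R : ℕ} (a : Fin R → Fin (g + 1) → ℂ) (ha : IsArr a) (Ee : Finset (Fin R ⊕ Fin k → ℤ))
    (F : L0 t z) (hF0 : F ≠ 0)
    (hF2 : ∀ w : AddValuation (L0 t z) (WithTop ℤ), Q.IsDivisorial (g + k) w →
      ∀ (D' : Fin (g + k) → Derivation ℂ (L0 t z) (L0 t z)) (h : L0 t z),
      h * Q.jac D' (Fin.append (t0 t z) (z0 t z)) = 1 →
      ∀ m' : ℤ, Q.FormOrder w D' m' → ∀ γ₀ ∈ Ee,
      (∀ γ ∈ Ee, ∑ x, γ₀ x * wts w (t0 t z) a (z0 t z) x ≤
        ∑ x, γ x * wts w (t0 t z) a (z0 t z) x) →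
      ov w h + logDisc a (wts w (t0 t z) a (z0 t z)) +
        (ov w F - ∑ x, γ₀ x * wts w (t0 t z) a (z0 t z) x) ≤ 1 + m')
    (w : AddValuation L (WithTop ℤ)) (hw : Q.IsDivisorial (g + k) w)
    (D' : Fin (g + k) → Derivation ℂ L L) (h : L) (hh : h * Q.jac D' (Fin.append t z) = 1)
    (m' : ℤ) (hm' : Q.FormOrder w D' m') (γ₀ : Fin R ⊕ Fin k → ℤ) (hγ₀ : γ₀ ∈ Ee)
    (hmin : ∀ γ ∈ Ee, ∑ x, γ₀ x * wts w t a z x ≤ ∑ x, γ x * wts w t a z x) :
    ov w h + logDisc a (wts w t a z) +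
      (ov w (algebraMap (L0 t z) L F) - ∑ x, γ₀ x * wts w t a z x) ≤ 1 + m' := by
  classical
  have hd : 0 < g + k := by omega
  haveI := hF.fin
  haveI : Algebra.IsAlgebraic (L0 t z) L := Algebra.IsAlgebraic.of_finite _ _
  have hrat := rat0 t z hF
  have hF' : IsFin (Fin.append (t0 t z) (z0 t z)) := by
    refine ⟨hrat.ind, ?_⟩
    rw [hrat.gen]
    exact Module.Finite.of_surjective (Algebra.linearMap (⊤ : IntermediateField ℂ (L0 t z)) _)
      (fun x => ⟨⟨x, trivial⟩, rfl⟩)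
  obtain ⟨hessL, htrL, hjL⟩ := hE1 (g + k) L (Fin.append t z) hF
  obtain ⟨hess0, htr0, hj0⟩ := hE1 (g + k) (L0 t z) _ hF'
  haveI := hessL
  haveI := hess0
  -- restriction
  obtain ⟨w0, e, he, hw0, hww⟩ := exists_restriction (K := L0 t z) (L := L) (g + k) w
    (divisorial_iff.1 hw)
  -- derivations on `L0`
  have htb : IsTranscendenceBasis ℂ (Fin.append (t0 t z) (z0 t z)) := by
    rw [isTranscendenceBasis_iff_algebraicIndependent_isAlgebraic]
    refine ⟨hrat.ind, ?_⟩
    haveI := hF'.fin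
    haveI : Algebra.IsAlgebraic
      (IntermediateField.adjoin ℂ (Set.range (Fin.append (t0 t z) (z0 t z)))) (L0 t z) :=
      Algebra.IsAlgebraic.of_finite _ _
    open IntermediateField.algebraAdjoinAdjoin in
    exact (IsFractionRing.comap_isAlgebraic_iff
      (A := Algebra.adjoin ℂ (Set.range (Fin.append (t0 t z) (z0 t z))))
      (K := IntermediateField.adjoin ℂ (Set.range (Fin.append (t0 t z) (z0 t z))))
      (C := L0 t z)).2 inferInstance
  obtain ⟨D0, hD0⟩ := exists_dual (Fin.append (t0 t z) (z0 t z)) htb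
  have hjD0 : ∃ f, Q.jac D0 f ≠ 0 := ⟨_, by rw [hD0]; exact one_ne_zero⟩
  obtain ⟨D1, hD1⟩ := exists_ext (K := L0 t z) (L := L) htrL D0
  have hy : Fin.append t z = fun i => algebraMap (L0 t z) L (Fin.append (t0 t z) (z0 t z) i) := by
    funext i; exact (app0 t z i).symm
  have hjac1 : Q.jac D1 (Fin.append t z) = 1 := by
    rw [hy, jac_map hD1, hD0, map_one]
  obtain ⟨m0, hm0⟩ := order_exists hd htr0 D0 hjD0 (divisorial_iff.2 hw0)
  obtain ⟨m1, hm1⟩ := order_exists hd htrL D1 ⟨_, by rw [hjac1]; exact one_ne_zero⟩ hw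
  have htrans := order_transfer hd htr0 htrL hjD0 hD1 (divisorial_iff.2 hw0) hw.normalized he hww
    hm0 hm1
  have hsc := hE2 (g + k) L (Fin.append t z) hF D1 D' 1 h (by rw [hjac1, one_mul]) hh w m1 m' hm1 hm'
  rw [ov_one, sub_zero] at hsc
  -- weights
  have hcne : ∀ x, coord (t0 t z) a (z0 t z) x ≠ 0 := fun x =>
    coord_ne d6 hrat ha hg x
  have hwts : wts w t a z = fun x => (e : ℤ) * wts w0 (t0 t z) a (z0 t z) x := by
    funext x
    show ov w (coord t a z x) = e * ov w0 (coord (t0 t z) a (z0 t z) x)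
    rw [← coord0, ov_smul w w0 e hww _ (hcne x)]
  have he' : (0 : ℤ) < e := by exact_mod_cast he
  have hsum : ∀ γ : Fin R ⊕ Fin k → ℤ, ∑ x, γ x * wts w t a z x =
      e * ∑ x, γ x * wts w0 (t0 t z) a (z0 t z) x := by
    intro γ
    rw [hwts, Finset.mul_sum]
    exact Finset.sum_congr rfl fun x _ => by ring
  have h1 := hF2 w0 (divisorial_iff.2 hw0) D0 1 (by rw [hD0, one_mul]) m0 hm0 γ₀ hγ₀ (by
    intro γ hγ
    have h2 := hmin γ hγ
    rw [hsum, hsum] at h2
    exact le_of_mul_le_mul_left h2 he')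
  rw [ov_one, zero_add] at h1
  have h3 : ov w (algebraMap (L0 t z) L F) = e * ov w0 F := ov_smul w w0 e hww F hF0
  have h4 : logDisc a (wts w t a z) = e * logDisc a (wts w0 (t0 t z) a (z0 t z)) := by
    rw [hwts]; exact logDisc_smul a ha _ e
  rw [h3, h4, hsum]
  have h5 := mul_le_mul_of_nonneg_left h1 he'.le
  have h6 : 1 + m' = ov w h + e * (1 + m0) := by rw [← htrans]; linarith
  rw [h6]
  linarith [h5]

/-- E4. -/
theorem e4 (hE1 : ExtBasics) (hE2 : OrdScale) : GenericL := by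
  classical
  intro g R k L _ _ t a z hg hF ha Ee hEe
  obtain ⟨F, hF0, hF1, hF2⟩ := genericF g R k (L0 t z) (t0 t z) a (z0 t z) hg (rat0 t z hF) ha Ee hEe
  refine ⟨algebraMap (L0 t z) L F, (map_ne_zero _).2 hF0, ?_, ?_⟩
  · intro w hw B hB
    have h1 := hF1 (w.comap (algebraMap (L0 t z) L)) (by
      intro c hc
      show w (algebraMap (L0 t z) L (algebraMap ℂ (L0 t z) c)) = 0
      rw [← IsScalarTower.algebraMap_apply]; exact hw c hc) B (by
      intro γ hγ
      rw [wts_comap]; exact hB γ hγ)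
    exact h1
  · intro w hw D' h hh m' hm' γ₀ hγ₀ hmin
    exact second t z hE1 hE2 hg hF a ha Ee F hF0 hF2 w hw D' h hh m' hm' γ₀ hγ₀ hmin

end Main

end Vale.Agent.P283.H820
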